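import Vale.Agent.P179S50.Lift
import Vale.Agent.P179.H166.Blocks

/-!
# Central characters of simple modules and of blocks
-/

namespace P179S

open P179H524 P179B

section Field

variable {F H : Type*} [Field F] [Group H]

theorem exists_chi (hs : Splits F H) (a : IrrRep F H) :
    ∃ l : Subalgebra.center F (MonoidAlgebra F H) →ₐ[F] F,
      ∀ z : Subalgebra.center F (MonoidAlgebra F H),
        a.1.2.asAlgebraHom (z : MonoidAlgebra F H) = l z • 1 := by
  have h1 : ∀ z : Subalgebra.center F (MonoidAlgebra F H), ∃ c : F,
      a.1.2.asAlgebraHom (z : MonoidAlgebra F H) = c • 1 := by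
    intro z
    refine hs a _ fun g => ?_
    rw [← Representation.asAlgebraHom_single_one, ← map_mul, ← map_mul]
    congr 1
    exact (Subalgebra.mem_center_iff.mp z.2 _).symm
  choose c hc using h1
  refine ⟨
    { toFun := c
      map_one' := ?_
      map_mul' := ?_
      map_zero' := ?_
      map_add' := ?_
      commutes' := ?_ }, hc⟩
  · apply smul_one_inj a
    rw [← hc, one_smul]
    exact map_one _
  · intro x y
    apply smul_one_inj a
    rw [← hc, mul_smul, ← hc, ← smul_one_mul, ← hc, ← map_mul]
    rfl
  · apply smul_one_inj a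
    rw [← hc, zero_smul]
    exact map_zero _
  · intro x y
    apply smul_one_inj a
    rw [← hc, add_smul, ← hc, ← hc, ← map_add]
    rfl
  · intro r
    apply smul_one_inj a
    rw [← hc, ← Algebra.algebraMap_eq_smul_one]
    exact AlgHom.commutes _ r

theorem hasScalar_iff (a : IrrRep F H) (z : MonoidAlgebra F H) (c : F) :
    HasScalar a z c ↔ a.1.2.asAlgebraHom z = c • 1 :=
  ⟨fun h => LinearMap.ext h, fun h v => LinearMap.congr_fun h v⟩

theorem isBlock_iff_prim (B : Subalgebra.center F (MonoidAlgebra F H)) :
    IsBlock (B : MonoidAlgebra F H) ↔ P179C.Prim B := by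
  unfold IsBlock P179C.Prim
  constructor
  · rintro ⟨_, h2, h3, h4⟩
    refine ⟨Subtype.ext h2, fun h => h3 (congrArg Subtype.val h), fun e he1 he2 => ?_⟩
    rcases h4 e e.2 (congrArg Subtype.val he1) (congrArg Subtype.val he2) with h | h
    · exact Or.inl (Subtype.ext h)
    · exact Or.inr (Subtype.ext h)
  · rintro ⟨h2, h3, h4⟩
    refine ⟨B.2, congrArg Subtype.val h2, fun h => h3 (Subtype.ext h), fun e he he1 he2 => ?_⟩
    rcases h4 ⟨e, he⟩ (Subtype.ext he1) (Subtype.ext he2) with h | h
    · exact Or.inl (congrArg Subtype.val h)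
    · exact Or.inr (congrArg Subtype.val h)

variable [Finite H]

theorem artinian_ctr : IsArtinianRing (Subalgebra.center F (MonoidAlgebra F H)) :=
  have := finite_ctr (R := F) (H := H)
  IsArtinianRing.of_finite F _

theorem exists_inBlock {B : MonoidAlgebra F H} (hB : IsBlock B) :
    ∃ a : IrrRep F H, InBlock a B := by
  let ρ := Representation.ofMulAction F H H
  have hρ : ∀ (h : H) (x : MonoidAlgebra F H), ρ h x = MonoidAlgebra.single h 1 * x := by
    intro h x
    rw [← Representation.asAlgebraHom_ofMulAction_smul_eq_mul,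
      Representation.asAlgebraHom_single_one]
  let U : Subrepresentation ρ :=
    { toSubmodule :=
        { carrier := {x | B * x = x}
          add_mem' := fun {x y} hx hy => by
            change B * (x + y) = x + y
            rw [mul_add, hx, hy]
          zero_mem' := mul_zero B
          smul_mem' := fun c x hx => by
            change B * (c • x) = c • x
            rw [mul_smul_comm, hx] }
      apply_mem_toSubmodule := fun h x hx => by
        change B * ρ h x = ρ h x
        rw [hρ, ← mul_assoc, ← Subalgebra.mem_center_iff.mp hB.1, mul_assoc, hx] }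
  have : Nontrivial U.toSubmodule :=
    ⟨⟨⟨B, hB.2.1⟩, 0, fun h => hB.2.2.1 (congrArg Subtype.val h)⟩⟩
  obtain ⟨a, f, hf, hi⟩ := exists_irr_sub U.toRepresentation
  have h1 : ∀ (z : MonoidAlgebra F H) v, (f (a.1.2.asAlgebraHom z v)).1 = z * (f v).1 := by
    intro z v
    induction z using MonoidAlgebra.induction_linear with
    | zero => simp
    | add x y hx hy => rw [map_add, LinearMap.add_apply, map_add, Submodule.coe_add, hx, hy, add_mul]
    | single g r =>
      rw [Representation.asAlgebraHom_single, LinearMap.smul_apply, map_smul, hi,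
        Submodule.coe_smul]
      change r • ρ g (f v).1 = _
      rw [hρ, ← smul_mul_assoc, MonoidAlgebra.smul_single, smul_eq_mul, mul_one]
  refine ⟨a, fun v => hf (Subtype.ext ?_)⟩
  rw [h1, one_smul]
  exact (f v).2

/-- The central character of a block is an algebra map sending the block to `1`. -/
theorem block_hom [IsAlgClosed F] {B : MonoidAlgebra F H} (hB : IsBlock B) :
    ∃ l : Subalgebra.center F (MonoidAlgebra F H) →ₐ[F] F,
      (∀ z : Subalgebra.center F (MonoidAlgebra F H), centralChar B z.1 = l z) ∧
        l ⟨B, hB.1⟩ = 1 := by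
  have := artinian_ctr (F := F) (H := H)
  have hprim := (isBlock_iff_prim ⟨B, hB.1⟩).mp hB
  have hB1 : ∀ (b : IrrRep F H) (l' : Subalgebra.center F (MonoidAlgebra F H) →ₐ[F] F),
      (∀ z : Subalgebra.center F (MonoidAlgebra F H),
        b.1.2.asAlgebraHom (z : MonoidAlgebra F H) = l' z • 1) → InBlock b B →
      l' ⟨B, hB.1⟩ = 1 := by
    intro b l' hl' hb
    apply smul_one_inj b
    rw [← hl']
    exact (hasScalar_iff b B 1).mp hb
  obtain ⟨a, ha⟩ := exists_inBlock hB
  obtain ⟨l, hl⟩ := exists_chi splits_of_algClosed a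
  refine ⟨l, fun z => ?_, hB1 a l hl ha⟩
  have hex : ∃ c : F, HasScalarOn B z.1 c := by
    refine ⟨l z, fun b hb => ?_⟩
    obtain ⟨l', hl'⟩ := exists_chi splits_of_algClosed b
    have h1 : l' = l := P179C.eq_of_prim hprim l' l (hB1 b l' hl' hb) (hB1 a l hl ha)
    rw [hasScalar_iff, hl', h1]
  unfold centralChar
  rw [dif_pos hex]
  have h2 := (hasScalar_iff _ _ _).mp (hex.choose_spec a ha)
  rw [hl] at h2
  exact (smul_one_inj a h2).symm

/-- The scalar of a class sum. -/
theorem scalar_cs [CharZero F] (a : IrrRep F H) (h : H) (c : F)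
    (hc : a.1.2.asAlgebraHom (cs F h) = c • 1) :
    c = Nat.card {x : H // IsConj h x} * a.1.2.character h / a.1.2.character 1 := by
  have := Fintype.ofFinite {x : H // IsConj h x}
  have := nontriv a
  have h0 : a.1.2.character 1 ≠ 0 := by
    rw [Representation.char_one]
    exact_mod_cast Module.finrank_pos.ne'
  have h1 := congrArg (LinearMap.trace F (Fin a.1.1 → F)) hc
  rw [cs, finsum_eq_sum_of_fintype, map_sum, map_sum, map_smul, LinearMap.trace_one,
    ← Representation.char_one a.1.2, smul_eq_mul] at h1
  rw [eq_div_iff h0, ← h1, Nat.card_eq_fintype_card, ← Finset.card_univ, ← nsmul_eq_mul,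
    ← Finset.sum_const]
  refine Finset.sum_congr rfl fun x _ => ?_
  obtain ⟨g, hg⟩ := isConj_iff.mp x.2
  rw [Representation.asAlgebraHom_single_one, ← hg]
  exact Representation.char_conj _ _ _

/-- Scalars of elements with coefficients in `R` are integral over `R`. -/
theorem scalar_integral {R : Type*} [CommRing R] (f : R →+* F) (a : IrrRep F H)
    (y : MonoidAlgebra R H) (c : F)
    (hc : a.1.2.asAlgebraHom (MonoidAlgebra.mapRingHom H f y) = c • 1) : f.IsIntegralElem c := by
  have := finite_alg (R := R) (H := H)
  have := nontriv a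
  obtain ⟨q, hq, hq0⟩ := IsIntegral.of_finite R y
  refine ⟨q, hq, ?_⟩
  let Φ : MonoidAlgebra R H →+* Module.End F (Fin a.1.1 → F) :=
    a.1.2.asAlgebraHom.toRingHom.comp (MonoidAlgebra.mapRingHom H f)
  have h1 : Φ.comp (algebraMap R _) = (algebraMap F _).comp f := by
    refine RingHom.ext fun r => ?_
    change a.1.2.asAlgebraHom (((MonoidAlgebra.mapRingHom H f).comp (algebraMap R _)) r) = _
    rw [MonoidAlgebra.mapRingHom_comp_algebraMap]
    exact AlgHom.commutes _ _
  have h2 : Φ y = algebraMap F _ c := by
    rw [Algebra.algebraMap_eq_smul_one]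
    exact hc
  have h3 := congrArg Φ hq0
  rw [Polynomial.hom_eval₂, h1, h2, ← Polynomial.hom_eval₂, map_zero] at h3
  exact (map_eq_zero_iff _ (FaithfulSMul.algebraMap_injective F _)).mp h3

end Field

section System

variable {O k : Type*} [CommRing O] [IsDomain O] [Field k] {π : O →+* k}
  {K : Type*} [Field K] [Algebra O K] {H : Type*} [Group H] [Finite H]

/-- The central character of an ordinary character, over `O` and reduced to `k`. -/
theorem exists_omega [IsDiscreteValuationRing O] [IsFractionRing O K]
    (hπ : Function.Surjective π) (hs : Splits K H) (a : IrrRep K H) :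
    ∃ (ω : Subalgebra.center O (MonoidAlgebra O H) →+* O)
      (Λ : Subalgebra.center k (MonoidAlgebra k H) →ₐ[k] k),
      (∀ z : Subalgebra.center O (MonoidAlgebra O H), a.1.2.asAlgebraHom
        (MonoidAlgebra.mapRingHom H (algebraMap O K) z) = algebraMap O K (ω z) • 1) ∧
      ∀ z, Λ (zmap H π z) = π (ω z) := by
  obtain ⟨l, hl⟩ := exists_chi hs a
  have hinj := IsFractionRing.injective O K
  have h1 : ∀ z, ∃ o : O, algebraMap O K o = l (zmap H (algebraMap O K) z) := fun z =>
    IsIntegrallyClosed.algebraMap_eq_of_integral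
      (scalar_integral (algebraMap O K) a z.1 _ (hl (zmap H (algebraMap O K) z)))
  choose w hw using h1
  let ω : Subalgebra.center O (MonoidAlgebra O H) →+* O :=
    { toFun := w
      map_one' := hinj (by rw [hw, map_one, map_one, map_one])
      map_mul' := fun x y => hinj (by rw [hw, map_mul, map_mul, map_mul, hw, hw])
      map_zero' := hinj (by rw [hw, map_zero, map_zero, map_zero])
      map_add' := fun x y => hinj (by rw [hw, map_add, map_add, map_add, hw, hw]) }
  have hω : ∀ o : O, ω (algebraMap O _ o) = o := fun o => hinj (by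
    change algebraMap O K (w _) = _
    rw [hw, zmap_algebraMap, AlgHom.commutes]
    rfl)
  have hker : RingHom.ker (zmap H π) ≤ RingHom.ker (π.comp ω) := by
    rw [zmap_ker, Ideal.map_le_iff_le_comap]
    intro o ho
    rw [Ideal.mem_comap, RingHom.mem_ker, RingHom.comp_apply, hω]
    exact ho
  let L := (zmap H π).liftOfSurjective (zmap_surj π hπ) ⟨π.comp ω, hker⟩
  have hL : ∀ z, L (zmap H π z) = π (ω z) := fun z =>
    RingHom.liftOfRightInverse_comp_apply _ _ _ _ z
  refine ⟨ω, { L with commutes' := fun r => ?_ }, fun z => ?_, hL⟩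
  · obtain ⟨o, rfl⟩ := hπ r
    change L _ = π o
    rw [← zmap_algebraMap, hL, hω]
  · change _ = algebraMap O K (w z) • _
    rw [hw]
    exact hl (zmap H (algebraMap O K) z)

end System

end P179S
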