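import Vale.Agent.P179.H143.CDefs

/-!
# Splitting `p`-modular systems, blocks of ordinary characters, weights in a block

`(K, O, k)` with the residue map `π : O → k`. Ordinary characters are the characters over `K`;
the block of an ordinary character is read off from the idempotents of `Z(OH)` lifting the blocks
of `kH`. `IsBlock`, `InBlock`, `numSimpleIn`, `InducesTo`, `IrrRep`, `NQ` are those of
`P179.H143.CDefs` and `P179.H524.Defs`.
-/

namespace P179S

open Subgroup P179H524 P179B

/-- Every endomorphism of the representation `ρ` is a scalar. -/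
def ScalarEnd {K H V : Type*} [Field K] [Group H] [AddCommGroup V] [Module K V]
    (ρ : Representation K H V) : Prop :=
  ∀ f : Module.End K V, (∀ h : H, f * ρ h = ρ h * f) → ∃ c : K, f = c • (1 : Module.End K V)

/-- `K` is a splitting field for `H`: every endomorphism of a simple `KH`-module is a scalar. -/
def Splits (K H : Type*) [Field K] [Group H] : Prop := ∀ a : IrrRep K H, ScalarEnd a.1.2

/-- `(K, O, k)` is a splitting modular system for `G`, with residue map `π`: `O` is a discrete
valuation ring, complete for its maximal ideal `ker π`, with residue field `k` (`π` is onto), `K`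
is the field of fractions of `O`, of characteristic `0`, and a splitting field for all subgroups
of `G`. -/
structure IsSystem {O k : Type*} [CommRing O] [IsDomain O] [Field k] (π : O →+* k)
    (K : Type*) [Field K] [Algebra O K] (G : Type*) [Group G] : Prop where
  dvr : IsDiscreteValuationRing O
  surj : Function.Surjective π
  complete : IsAdicComplete (RingHom.ker π) O
  frac : IsFractionRing O K
  charZero : CharZero K
  splits : ∀ H : Subgroup G, Splits K H

/-- `χ` is an irreducible character of `H` over `K`. -/
def IsIrrCh {K H : Type*} [Field K] [Group H] (χ : H → K) : Prop :=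
  ∃ a : IrrRep K H, a.1.2.character = χ

/-- A `p`-weight of `G`: a pair `(Q, φ)`, `Q` a `p`-subgroup of `G` and `φ` an ordinary
irreducible character (over `K`) of `N_G(Q)/Q` with `φ(1)_p = |N_G(Q)/Q|_p`. -/
structure KWeight (p : ℕ) (K G : Type*) [Field K] [Group G] where
  /-- the `p`-subgroup -/
  Q : Subgroup G
  isPGroup : IsPGroup p Q
  /-- the character of `N_G(Q)/Q` -/
  φ : NQ Q → K
  irr : IsIrrCh φ
  defectZero : ∃ d : ℕ, φ 1 = d ∧ d.factorization p = (Nat.card (NQ Q)).factorization p

/-- `G`-conjugacy of weights: `b = g a g⁻¹` for some `g ∈ G`. -/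
def KWeight.Conj {p : ℕ} {K G : Type*} [Field K] [Group G] (a b : KWeight p K G) : Prop :=
  ∃ g : G, b.Q = a.Q.map (MulAut.conj g).toMonoidHom ∧
    ∀ (n : normalizer (a.Q : Set G)) (n' : normalizer (b.Q : Set G)),
      (n' : G) = g * n * g⁻¹ → b.φ (QuotientGroup.mk n') = a.φ (QuotientGroup.mk n)

/-- The inflation of `φ` to `N_G(Q)`. -/
def KWeight.infl {p : ℕ} {K G : Type*} [Field K] [Group G] (w : KWeight p K G) :
    normalizer (w.Q : Set G) → K :=
  fun n => w.φ (QuotientGroup.mk n)

section System

variable {O k : Type*} [CommRing O] [Field k] (π : O →+* k)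
  {K : Type*} [Field K] [Algebra O K]

/-- `c` is an idempotent of the centre of `OH` whose reduction along `π` is `b`. -/
def IsLift {H : Type*} [Group H] (c : MonoidAlgebra O H) (b : MonoidAlgebra k H) : Prop :=
  c ∈ Subalgebra.center O (MonoidAlgebra O H) ∧ c * c = c ∧ MonoidAlgebra.mapRingHom H π c = b

/-- The ordinary character `χ` of `H` belongs to the block `b` of `kH`: `χ` is the character of a
simple `KH`-module on which the idempotent of `Z(OH)` lifting `b` acts as the identity. -/
def CharIn {H : Type*} [Group H] (χ : H → K) (b : MonoidAlgebra k H) : Prop :=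
  ∃ (c : MonoidAlgebra O H) (a : IrrRep K H), IsLift π c b ∧ a.1.2.character = χ ∧
    InBlock a (MonoidAlgebra.mapRingHom H (algebraMap O K) c)

/-- The weight `(Q, φ)` belongs to `B`: `b^G = B` for the block `b` of `N_G(Q)` containing the
inflation of `φ`. -/
def WeightIn {p : ℕ} {G : Type*} [Group G] (w : KWeight p K G) (B : MonoidAlgebra k G) : Prop :=
  ∃ b : MonoidAlgebra k (normalizer (w.Q : Set G)),
    IsBlock b ∧ CharIn π w.infl b ∧ InducesTo b B

/-- `|W_p(B)|`: the number of `G`-classes of `p`-weights belonging to `B`. -/
noncomputable def numW (p : ℕ) (K : Type*) [Field K] [Algebra O K] {G : Type*} [Group G]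
    (B : MonoidAlgebra k G) : ℕ :=
  Nat.card (Quot fun a b : {w : KWeight p K G // WeightIn π w B} => KWeight.Conj a.1 b.1)

end System

end P179S
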