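import Vale.Agent.P179S50.Chi

/-!
# Comparison of a modular system with the complex numbers
-/

namespace P179S

open P179H524 P179B

universe u

section Omega

/-- A common extension of `K` and `ℂ`. -/
theorem exists_common (K : Type u) [Field K] [CharZero K] :
    ∃ (Ω : Type u) (_ : Field Ω), Nonempty (K →+* Ω) ∧ Nonempty (ℂ →+* Ω) := by
  obtain ⟨M, hM⟩ := Ideal.exists_maximal (TensorProduct ℚ K ℂ)
  exact ⟨TensorProduct ℚ K ℂ ⧸ M, Ideal.Quotient.field M,
    ⟨(Ideal.Quotient.mk M).comp Algebra.TensorProduct.includeLeftRingHom⟩,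
    ⟨(Ideal.Quotient.mk M).comp
      (Algebra.TensorProduct.includeRight (R := ℚ) (A := K) (B := ℂ)).toRingHom⟩⟩

/-- A map onto an algebraically closed field extends to integral extensions. -/
theorem exists_extend {O R k : Type*} [CommRing O] [CommRing R] [Field k] [IsAlgClosed k]
    [Algebra O R] [Algebra.IsIntegral O R] (hinj : Function.Injective (algebraMap O R))
    (π : O →+* k) (hπ : Function.Surjective π) :
    ∃ P : R →+* k, ∀ o, P (algebraMap O R o) = π o := by
  have hmax : (RingHom.ker π).IsMaximal := RingHom.ker_isMaximal_of_surjective π hπ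
  obtain ⟨M, hM, hMc⟩ := Ideal.exists_ideal_over_maximal_of_isIntegral (S := R) (RingHom.ker π)
    (by rw [(RingHom.injective_iff_ker_eq_bot _).mp hinj]; exact bot_le)
  let _ : Field (R ⧸ M) := Ideal.Quotient.field M
  have hk : RingHom.ker π ≤ RingHom.ker ((Ideal.Quotient.mk M).comp (algebraMap O R)) := by
    intro o ho
    rw [← hMc] at ho
    exact Ideal.Quotient.eq_zero_iff_mem.mpr ho
  let j : k →+* R ⧸ M := π.liftOfSurjective hπ ⟨_, hk⟩
  have hj : ∀ o, j (π o) = Ideal.Quotient.mk M (algebraMap O R o) := fun o =>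
    RingHom.liftOfRightInverse_comp_apply _ _ _ _ o
  have hint : j.IsIntegral := by
    intro x
    obtain ⟨r, rfl⟩ := Ideal.Quotient.mk_surjective x
    obtain ⟨q, hq, hq0⟩ := Algebra.IsIntegral.isIntegral (R := O) r
    refine ⟨q.map π, hq.map π, ?_⟩
    have h1 : j.comp π = (Ideal.Quotient.mk M).comp (algebraMap O R) := RingHom.ext hj
    rw [Polynomial.eval₂_map, h1, ← Polynomial.hom_eval₂, hq0, map_zero]
  have hb : Function.Bijective j := IsAlgClosed.ringHom_bijective_of_isIntegral j hint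
  let e := RingEquiv.ofBijective j hb
  refine ⟨e.symm.toRingHom.comp (Ideal.Quotient.mk M), fun o => ?_⟩
  change e.symm (Ideal.Quotient.mk M _) = _
  rw [← hj]
  exact e.symm_apply_apply (π o)

theorem int_map {A B : Type*} [CommRing A] [CommRing B] (f : A →+* B) {x : A}
    (h : IsIntegral ℤ x) : IsIntegral ℤ (f x) := h.map f.toIntAlgHom

theorem int_of_map {A B : Type*} [Field A] [Field B] (f : A →+* B) {x : A}
    (h : IsIntegral ℤ (f x)) : IsIntegral ℤ x :=
  (isIntegral_algHom_iff f.toIntAlgHom f.injective).mp h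

variable {O k : Type*} [CommRing O] [IsDomain O] [Field k] {π : O →+* k}
  {K : Type*} [Field K] [Algebra O K] {Ω : Type*} [Field Ω]

omit [IsDomain O] in
/-- A reduction map on the algebraic integers compatible with `π`. -/
theorem exists_red [IsAlgClosed k] [IsFractionRing O K] (hπ : Function.Surjective π)
    (ι : K →+* Ω) (κ : ℂ →+* Ω) : ∃ red : integralClosure ℤ ℂ →+* k,
      ∀ (x : integralClosure ℤ ℂ) (o : O), κ x = ι (algebraMap O K o) → red x = π o := by
  let _ : Algebra O Ω := (ι.comp (algebraMap O K)).toAlgebra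
  have hinj : Function.Injective (algebraMap O (integralClosure O Ω)) := fun x y h =>
    IsFractionRing.injective O K (ι.injective (congrArg Subtype.val h))
  obtain ⟨P, hP⟩ := exists_extend hinj π hπ
  let j : integralClosure ℤ ℂ →+* integralClosure O Ω :=
    (κ.comp (integralClosure ℤ ℂ).val.toRingHom).codRestrict (integralClosure O Ω)
      fun x => IsIntegral.tower_top (R := ℤ) (int_map κ x.2)
  refine ⟨P.comp j, fun x o h => ?_⟩
  rw [← hP]
  exact congrArg P (Subtype.ext h)

/-- The block of an ordinary character: lifted idempotents and central characters agree. -/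
theorem key [IsAlgClosed k] [IsDiscreteValuationRing O] [IsAdicComplete (RingHom.ker π) O]
    [IsFractionRing O K] [CharZero K] (hπ : Function.Surjective π) (ι : K →+* Ω) (κ : ℂ →+* Ω)
    (red : integralClosure ℤ ℂ →+* k)
    (hred : ∀ (x : integralClosure ℤ ℂ) (o : O), κ x = ι (algebraMap O K o) → red x = π o)
    {H : Type*} [Group H] [Finite H] (hs : Splits K H) (a : IrrRep K H) (χ : H → ℂ)
    (hχ : ∀ h, κ (χ h) = ι (a.1.2.character h)) {b : MonoidAlgebra k H} (hb : IsBlock b) :
    (∃ c, IsLift π c b ∧ InBlock a (MonoidAlgebra.mapRingHom H (algebraMap O K) c)) ↔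
      CharInBlock red χ b := by
  have := artinian_ctr (F := k) (H := H)
  have := Fintype.ofFinite (ConjClasses H)
  obtain ⟨ω, Λ, hω, hΛ⟩ := exists_omega hπ hs a
  obtain ⟨l, hl, hlb⟩ := block_hom hb
  have F1 : ∀ h, redC red (Nat.card {x : H // IsConj h x} * χ h / χ 1) =
      Λ ⟨cs k h, cs_mem h⟩ := by
    intro h
    have h1 := hω ⟨cs O h, cs_mem h⟩
    rw [map_cs] at h1
    have h2 := scalar_cs a h _ h1
    have h3 : κ (Nat.card {x : H // IsConj h x} * χ h / χ 1) =
        ι (algebraMap O K (ω ⟨cs O h, cs_mem h⟩)) := by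
      rw [h2, map_div₀, map_div₀, map_mul, map_mul, map_natCast, map_natCast, hχ, hχ]
    have h4 : IsIntegral ℤ (algebraMap O K (ω ⟨cs O h, cs_mem h⟩)) :=
      scalar_integral (algebraMap ℤ K) a (cs ℤ h) _ (by rw [map_cs]; exact h1)
    have h5 : (Nat.card {x : H // IsConj h x} * χ h / χ 1 : ℂ) ∈ integralClosure ℤ ℂ := by
      apply int_of_map κ
      rw [h3]
      exact int_map ι h4
    unfold redC
    rw [dif_pos h5, hred ⟨_, h5⟩ _ h3, ← hΛ]
    exact congrArg Λ (Subtype.ext (map_cs π h))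
  have F2 : CharInBlock red χ b ↔ l = Λ := by
    constructor
    · intro h
      refine AlgHom.ext fun z => ?_
      rw [eq_sum_cs z, map_sum, map_sum]
      refine Finset.sum_congr rfl fun C _ => ?_
      rw [map_smul, map_smul, ← F1, ← h, ← hl]
      rfl
    · rintro rfl h
      rw [F1]
      exact hl ⟨cs k h, cs_mem h⟩
  rw [F2]
  constructor
  · rintro ⟨c, ⟨h1, -, h3⟩, h4⟩
    refine P179C.eq_of_prim ((isBlock_iff_prim ⟨b, hb.1⟩).mp hb) l Λ hlb ?_
    have h5 : algebraMap O K (ω ⟨c, h1⟩) = 1 := by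
      apply smul_one_inj a
      rw [← hω]
      exact (hasScalar_iff _ _ _).mp h4
    have h6 : ω ⟨c, h1⟩ = 1 := IsFractionRing.injective O K (h5.trans (map_one _).symm)
    have h7 : zmap H π ⟨c, h1⟩ = ⟨b, hb.1⟩ := Subtype.ext h3
    rw [← h7, hΛ, h6, map_one]
  · rintro rfl
    obtain ⟨c, ⟨h1, h2, h3⟩, -⟩ := existsUnique_lift hπ hb.1 hb.2.1
    refine ⟨c, ⟨h1, h2, h3⟩, (hasScalar_iff _ _ _).mpr ?_⟩
    have h7 : zmap H π ⟨c, h1⟩ = ⟨b, hb.1⟩ := Subtype.ext h3
    rw [← h7, hΛ] at hlb
    have h8 : ω ⟨c, h1⟩ * ω ⟨c, h1⟩ = ω ⟨c, h1⟩ := by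
      rw [← map_mul]
      exact congrArg ω (Subtype.ext h2)
    have h9 : ω ⟨c, h1⟩ ≠ 0 := by
      intro h0
      rw [h0, map_zero] at hlb
      exact zero_ne_one hlb
    have h10 : ω ⟨c, h1⟩ = 1 := mul_left_cancel₀ h9 (by rw [h8, mul_one])
    rw [hω ⟨c, h1⟩, h10, map_one]

end Omega

end P179S
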