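import Vale.Agent.P179S50.Rep

/-!
# The centre of a group algebra: reduction and lifting of idempotents
-/

namespace P179S

open P179H524 P179B

section Center

variable {R S : Type*} [CommRing R] [CommRing S] {H : Type*} [Group H]

theorem mem_center (z : MonoidAlgebra R H) : z ∈ Subalgebra.center R (MonoidAlgebra R H) ↔
    ∀ g x : H, z.coeff (g * x * g⁻¹) = z.coeff x := by
  rw [Subalgebra.mem_center_iff]
  constructor
  · intro h g x
    have h1 := congrArg (fun y : MonoidAlgebra R H => y.coeff (g * x))
      (h (MonoidAlgebra.single g 1))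
    simpa [MonoidAlgebra.coeff_single_mul_apply, MonoidAlgebra.coeff_mul_single_apply]
      using h1.symm
  · intro h y
    induction y using MonoidAlgebra.induction_linear with
    | zero => simp
    | add a b ha hb => rw [add_mul, mul_add, ha, hb]
    | single g r =>
      ext x
      rw [MonoidAlgebra.coeff_single_mul_apply, MonoidAlgebra.coeff_mul_single_apply, mul_comm r,
        ← h g (g⁻¹ * x)]
      simp

/-- The map of centres induced by a map of coefficient rings. -/
noncomputable def zmap (H : Type*) [Group H] (f : R →+* S) :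
    Subalgebra.center R (MonoidAlgebra R H) →+* Subalgebra.center S (MonoidAlgebra S H) where
  toFun z := ⟨MonoidAlgebra.mapRingHom H f z, by
    rw [mem_center]
    intro g x
    rw [MonoidAlgebra.coeff_mapRingHom, MonoidAlgebra.coeff_mapRingHom, (mem_center _).mp z.2]⟩
  map_one' := Subtype.ext (map_one (MonoidAlgebra.mapRingHom H f))
  map_mul' x y := Subtype.ext (map_mul (MonoidAlgebra.mapRingHom H f) x.1 y.1)
  map_zero' := Subtype.ext (map_zero (MonoidAlgebra.mapRingHom H f))
  map_add' x y := Subtype.ext (map_add (MonoidAlgebra.mapRingHom H f) x.1 y.1)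

theorem zmap_coe (f : R →+* S) (z : Subalgebra.center R (MonoidAlgebra R H)) :
    (zmap H f z : MonoidAlgebra S H) = MonoidAlgebra.mapRingHom H f z := rfl

theorem zmap_algebraMap (f : R →+* S) (r : R) :
    zmap H f (algebraMap R _ r) = algebraMap S _ (f r) :=
  Subtype.ext (RingHom.congr_fun (MonoidAlgebra.mapRingHom_comp_algebraMap (M := H) f) r)

variable [Finite H]

theorem exists_apply_coeff (t : R → S) (z : Subalgebra.center R (MonoidAlgebra R H)) :
    ∃ y : Subalgebra.center S (MonoidAlgebra S H), ∀ x, y.1.coeff x = t (z.1.coeff x) :=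
  ⟨⟨MonoidAlgebra.ofCoeff (Finsupp.equivFunOnFinite.symm fun x => t (z.1.coeff x)), by
    rw [mem_center]
    intro g x
    change t _ = t _
    rw [(mem_center _).mp z.2]⟩, fun _ => rfl⟩

theorem zmap_surj (f : R →+* S) (hf : Function.Surjective f) :
    Function.Surjective (zmap H f) := by
  intro y
  obtain ⟨z, hz⟩ := exists_apply_coeff (Function.surjInv hf) y
  refine ⟨z, Subtype.ext ?_⟩
  ext x
  rw [zmap_coe, MonoidAlgebra.coeff_mapRingHom, hz, Function.surjInv_eq hf]

theorem zmap_ker (f : R →+* S) [(RingHom.ker f).IsPrincipal] :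
    RingHom.ker (zmap H f) = (RingHom.ker f).map (algebraMap R _) := by
  classical
  apply le_antisymm
  · intro z hz
    let u := Submodule.IsPrincipal.generator (RingHom.ker f)
    obtain ⟨y, hy⟩ := exists_apply_coeff (fun r : R => if h : u ∣ r then h.choose else 0) z
    have h1 : z = algebraMap R _ u * y := by
      rw [← Algebra.smul_def]
      apply Subtype.ext
      ext x
      have h2 : u ∣ z.1.coeff x := by
        rw [← Submodule.IsPrincipal.mem_iff_generator_dvd, RingHom.mem_ker,
          ← MonoidAlgebra.coeff_mapRingHom, ← zmap_coe, (RingHom.mem_ker).mp hz]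
        rfl
      change _ = u * y.1.coeff x
      rw [hy, dif_pos h2]
      exact h2.choose_spec
    rw [h1]
    exact Ideal.mul_mem_right _ _
      (Ideal.mem_map_of_mem _ (Submodule.IsPrincipal.generator_mem _))
  · rw [Ideal.map_le_iff_le_comap]
    intro r hr
    rw [Ideal.mem_comap, RingHom.mem_ker, zmap_algebraMap, (RingHom.mem_ker).mp hr, map_zero]

omit [Group H] in
theorem finite_alg : Module.Finite R (MonoidAlgebra R H) :=
  Module.Finite.equiv (MonoidAlgebra.coeffLinearEquiv R).symm

theorem finite_ctr [IsNoetherianRing R] :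
    Module.Finite R (Subalgebra.center R (MonoidAlgebra R H)) := by
  have : Module.Finite R (MonoidAlgebra R H) := finite_alg
  exact Module.Finite.of_injective (Subalgebra.center R (MonoidAlgebra R H)).val.toLinearMap
    Subtype.val_injective

/-- The class sum over a commutative ring. -/
noncomputable def cs (R : Type*) [CommRing R] (g : H) : MonoidAlgebra R H :=
  ∑ᶠ x : {x : H // IsConj g x}, MonoidAlgebra.single x.1 1

open Classical in
theorem coeff_cs (g x : H) : (cs R g).coeff x = if IsConj g x then 1 else 0 := by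
  have := Fintype.ofFinite {x : H // IsConj g x}
  unfold cs
  rw [finsum_eq_sum_of_fintype, MonoidAlgebra.coeff_sum, Finsupp.finsetSum_apply]
  simp only [MonoidAlgebra.coeff_single, Finsupp.single_apply]
  by_cases h : IsConj g x
  · rw [if_pos h, Finset.sum_eq_single ⟨x, h⟩]
    · simp
    · intro y _ hy
      rw [if_neg (fun hyx => hy (Subtype.ext hyx))]
    · intro h'; exact absurd (Finset.mem_univ _) h'
  · rw [if_neg h]
    refine Finset.sum_eq_zero fun y _ => ?_
    rw [if_neg (fun hyx => h (by rw [← hyx]; exact y.2))]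

theorem cs_mem (g : H) : cs R g ∈ Subalgebra.center R (MonoidAlgebra R H) := by
  rw [mem_center]
  intro c x
  have h1 : IsConj x (c * x * c⁻¹) := isConj_iff.mpr ⟨c, rfl⟩
  have h2 : IsConj g (c * x * c⁻¹) ↔ IsConj g x := ⟨fun h => h.trans h1.symm, fun h => h.trans h1⟩
  rw [coeff_cs, coeff_cs]
  by_cases h : IsConj g x
  · rw [if_pos h, if_pos (h2.mpr h)]
  · rw [if_neg h, if_neg (fun h3 => h (h2.mp h3))]

theorem map_cs (f : R →+* S) (g : H) : MonoidAlgebra.mapRingHom H f (cs R g) = cs S g := by
  ext x
  rw [MonoidAlgebra.coeff_mapRingHom, coeff_cs, coeff_cs]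
  split_ifs <;> simp

theorem eq_sum_cs [Fintype (ConjClasses H)] (z : Subalgebra.center R (MonoidAlgebra R H)) :
    z = ∑ C : ConjClasses H, z.1.coeff C.out •
      (⟨cs R C.out, cs_mem _⟩ : Subalgebra.center R (MonoidAlgebra R H)) := by
  classical
  apply Subtype.ext
  ext x
  rw [AddSubmonoidClass.coe_finsetSum, MonoidAlgebra.coeff_sum, Finsupp.finsetSum_apply,
    Finset.sum_eq_single (ConjClasses.mk x)]
  · have h1 : IsConj (ConjClasses.mk x).out x :=
      ConjClasses.mk_eq_mk_iff_isConj.mp (Quot.out_eq (ConjClasses.mk x))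
    change _ = z.1.coeff _ * (cs R _).coeff x
    rw [coeff_cs, if_pos h1, mul_one]
    obtain ⟨c, hc⟩ := isConj_iff.mp h1
    rw [← (mem_center _).mp z.2 c (ConjClasses.mk x).out, hc]
  · intro C _ hC
    change z.1.coeff _ * (cs R _).coeff x = 0
    rw [coeff_cs, if_neg, mul_zero]
    intro h
    exact hC ((Quot.out_eq C).symm.trans (ConjClasses.mk_eq_mk_iff_isConj.mpr h))
  · intro h'; exact absurd (Finset.mem_univ _) h'

end Center

section Hensel

theorem complete_fin {R M : Type*} [CommRing R] [AddCommGroup M] [Module R M]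
    [IsNoetherianRing R] (I : Ideal R) [IsAdicComplete I R] [Module.Finite R M] :
    IsAdicComplete I M where
  toIsHausdorff := .of_le_jacobson I M (IsAdicComplete.le_jacobson_bot I)
  toIsPrecomplete := AdicCompletion.of_surjective_iff.1 fun x => by
    obtain ⟨t, rfl⟩ := AdicCompletion.ofTensorProduct_surjective_of_finite I M x
    induction t with
    | zero => exact ⟨0, by simp⟩
    | tmul r m =>
      obtain ⟨r, rfl⟩ := AdicCompletion.of_surjective I R r
      exact ⟨r • m, by
        rw [AdicCompletion.ofTensorProduct_tmul, map_smul]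
        exact (algebraMap_smul (AdicCompletion I R) r _).symm⟩
    | add a b ha hb =>
      obtain ⟨a, ha⟩ := ha
      obtain ⟨b, hb⟩ := hb
      exact ⟨a + b, by rw [map_add, map_add, ha, hb]⟩

theorem complete_map {R L : Type*} [CommRing R] [CommRing L] [IsNoetherianRing R] (I : Ideal R)
    [IsAdicComplete I R] [Algebra R L] [Module.Finite R L] :
    IsAdicComplete (I.map (algebraMap R L)) L :=
  have := complete_fin (M := L) I
  { toIsHausdorff := IsHausdorff.map_algebraMap_iff.2 inferInstance
    toIsPrecomplete := IsPrecomplete.map_algebraMap_iff.2 inferInstance }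

theorem exists_idem {V : Type*} [CommRing V] (J : Ideal V) [IsAdicComplete J V] (a : V)
    (he : a * a - a ∈ J) : ∃ e : V, e * e = e ∧ e - a ∈ J := by
  have hH : HenselianRing V J := inferInstance
  obtain ⟨e, he1, he2⟩ := hH.is_henselian (Polynomial.X ^ 2 - Polynomial.X) (by monicity!)
    a (by simpa [pow_two] using he) (by
      refine IsUnit.of_mul_eq_one (Ideal.Quotient.mk J
        ((Polynomial.derivative (Polynomial.X ^ 2 - Polynomial.X)).eval a)) ?_
      rw [← map_mul, ← map_one (Ideal.Quotient.mk J), Ideal.Quotient.eq]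
      have h3 : (Polynomial.derivative (Polynomial.X ^ 2 - Polynomial.X : Polynomial V)).eval
          a = 2 * a - 1 := by
        rw [Polynomial.derivative_sub, Polynomial.derivative_X_sq, Polynomial.derivative_X,
          Polynomial.eval_sub, Polynomial.eval_mul, Polynomial.eval_X, Polynomial.eval_C,
          Polynomial.eval_one]
      rw [h3]
      have h4 : (2 * a - 1) * (2 * a - 1) - 1 = 4 * (a * a - a) := by ring
      rw [h4]
      exact J.mul_mem_left _ he)
  refine ⟨e, ?_, he2⟩
  rw [Polynomial.IsRoot.def] at he1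
  simp only [Polynomial.eval_sub, Polynomial.eval_pow, Polynomial.eval_X] at he1
  linear_combination he1

theorem idem_unique {V : Type*} [CommRing V] (J : Ideal V) [IsAdicComplete J V] {e e' : V}
    (h : e * e = e) (h' : e' * e' = e') (hJ : e - e' ∈ J) : e = e' := by
  have h1 := Ideal.mem_jacobson_bot.mp (IsAdicComplete.le_jacobson_bot J hJ) (-(e - e'))
  have h2 : ((e - e') * -(e - e') + 1) * (e - e') = 0 := by
    linear_combination (-e + 3 * e' - 1) * h + (e' - 3 * e + 1) * h'
  exact sub_eq_zero.mp (h1.mul_right_eq_zero.mp h2)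

theorem lift_idem {V W : Type*} [CommRing V] [CommRing W] (φ : V →+* W)
    (hc : IsAdicComplete (RingHom.ker φ) V) (hφ : Function.Surjective φ) (b : W)
    (hb : b * b = b) : ∃! e : V, e * e = e ∧ φ e = b := by
  obtain ⟨z, hz⟩ := hφ b
  obtain ⟨e, he1, he2⟩ := exists_idem (RingHom.ker φ) z (by
    rw [RingHom.mem_ker, map_sub, map_mul, hz, hb, sub_self])
  rw [RingHom.mem_ker, map_sub, hz, sub_eq_zero] at he2
  refine ⟨e, ⟨he1, he2⟩, ?_⟩
  rintro c ⟨h1, h2⟩
  refine idem_unique (RingHom.ker φ) h1 he1 ?_
  rw [RingHom.mem_ker, map_sub, he2, h2, sub_self]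

variable {O k : Type*} [CommRing O] [IsDomain O] [Field k] {π : O →+* k}
  {H : Type*} [Group H] [Finite H]

/-- Central idempotents of `kH` lift uniquely to central idempotents of `OH`. -/
theorem existsUnique_lift [IsDiscreteValuationRing O] [IsAdicComplete (RingHom.ker π) O]
    (hπ : Function.Surjective π) {b : MonoidAlgebra k H}
    (hb : b ∈ Subalgebra.center k (MonoidAlgebra k H)) (hb2 : b * b = b) :
    ∃! c : MonoidAlgebra O H, IsLift π c b := by
  have := finite_ctr (R := O) (H := H)
  have hc : IsAdicComplete (RingHom.ker (zmap H π)) (Subalgebra.center O (MonoidAlgebra O H)) := by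
    rw [zmap_ker]
    exact complete_map _
  obtain ⟨e, ⟨he1, he2⟩, hu⟩ := lift_idem (V := Subalgebra.center O (MonoidAlgebra O H))
    (W := Subalgebra.center k (MonoidAlgebra k H)) (zmap H π) hc (zmap_surj π hπ) ⟨b, hb⟩
    (Subtype.ext hb2)
  refine ⟨e, ⟨e.2, congrArg Subtype.val he1, congrArg Subtype.val he2⟩, ?_⟩
  rintro c ⟨h1, h2, h3⟩
  exact congrArg Subtype.val (hu ⟨c, h1⟩ ⟨Subtype.ext h2, Subtype.ext h3⟩)

end Hensel

end P179S
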