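import Vale.Agent.P179S50.Key

/-!
# Weights over a modular system and complex weights
-/

namespace P179S

open Subgroup P179H524 P179B

section Transfer

variable {K Ω H : Type*} [Field K] [CharZero K] [Field Ω] [Group H] [Finite H]
  (ι : K →+* Ω) (κ : ℂ →+* Ω)

theorem exists_complex (hs : Splits K H) {χ : H → K} (hχ : IsIrrCh χ) :
    ∃ ψ : H → ℂ, IsIrrChar ψ ∧ ∀ h, κ (ψ h) = ι (χ h) := by
  obtain ⟨ψ, ⟨a, ha⟩, h⟩ := irrCh_lift κ splits_of_algClosed (irrCh_map ι hs hχ)
  exact ⟨ψ, ⟨a.1.1, a.1.2, a.2, ha⟩, h⟩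

theorem exists_ordinary (hs : Splits K H) {ψ : H → ℂ} (hψ : IsIrrChar ψ) :
    ∃ χ : H → K, IsIrrCh χ ∧ ∀ h, ι (χ h) = κ (ψ h) := by
  obtain ⟨n, ρ, h1, h2⟩ := hψ
  exact irrCh_lift ι hs (irrCh_map κ splits_of_algClosed ⟨⟨⟨n, ρ⟩, h1⟩, h2⟩)

end Transfer

theorem prim_unique {k Z : Type*} [Field k] [CommRing Z] [Algebra k Z] (l : Z →ₐ[k] k) {B B' : Z}
    (h : P179C.Prim B) (h' : P179C.Prim B') (hl : l B = 1) (hl' : l B' = 1) : B = B' := by
  have h1 : B * B' * (B * B') = B * B' := by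
    linear_combination (B' * B') * h.1 + B * h'.1
  have h2 : B * B' ≠ 0 := by
    intro h0
    have := congrArg l h0
    rw [map_mul, hl, hl', map_zero, mul_one] at this
    exact one_ne_zero this
  have h3 := (h.2.2 _ h1 (by linear_combination B' * h.1)).resolve_left h2
  have h4 := (h'.2.2 _ h1 (by linear_combination B * h'.1)).resolve_left h2
  exact h3.symm.trans h4

theorem charInBlock_unique {k H : Type*} [Field k] [IsAlgClosed k] [Group H] [Finite H]
    {red : integralClosure ℤ ℂ →+* k} {χ : H → ℂ} {b b' : MonoidAlgebra k H} (hb : IsBlock b)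
    (hb' : IsBlock b') (h : CharInBlock red χ b) (h' : CharInBlock red χ b') : b = b' := by
  have := Fintype.ofFinite (ConjClasses H)
  obtain ⟨l, hl, hlb⟩ := block_hom hb
  obtain ⟨l', hl', hlb'⟩ := block_hom hb'
  have h1 : l = l' := by
    refine AlgHom.ext fun z => ?_
    rw [eq_sum_cs z, map_sum, map_sum]
    refine Finset.sum_congr rfl fun C _ => ?_
    rw [map_smul, map_smul, ← hl, ← hl']
    exact congrArg _ ((h C.out).trans (h' C.out).symm)
  subst h1
  exact congrArg Subtype.val (prim_unique l ((isBlock_iff_prim ⟨b, hb.1⟩).mp hb)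
    ((isBlock_iff_prim ⟨b', hb'.1⟩).mp hb') hlb hlb')

variable {O k : Type*} [CommRing O] [IsDomain O] [Field k] [IsAlgClosed k] {π : O →+* k}
  {K : Type*} [Field K] [Algebra O K] {G : Type*} [Group G] [Finite G]

omit [IsAlgClosed k] [Finite G] in
theorem IsSystem.lift (S : IsSystem π K G) {H : Type*} [Group H] [Finite H]
    {b : MonoidAlgebra k H} (hb : IsBlock b) : ∃! c : MonoidAlgebra O H, IsLift π c b :=
  have := S.dvr
  have := S.complete
  existsUnique_lift S.surj hb.1 hb.2.1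

/-- Every ordinary irreducible character lies in exactly one block. -/
theorem IsSystem.block (S : IsSystem π K G) (H : Subgroup G) {χ : H → K} (hχ : IsIrrCh χ) :
    ∃! b : MonoidAlgebra k H, IsBlock b ∧ CharIn π χ b := by
  have := S.dvr
  have := S.complete
  have := S.frac
  have := S.charZero
  have := artinian_ctr (F := k) (H := H)
  apply existsUnique_of_exists_of_unique
  · obtain ⟨a, ha⟩ := hχ
    obtain ⟨ω, Λ, hω, hΛ⟩ := exists_omega S.surj (S.splits H) a
    obtain ⟨b, hb, hlb⟩ := P179C.exists_prim Λ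
    have hb' := (isBlock_iff_prim b).mpr hb
    obtain ⟨c, ⟨h1, h2, h3⟩, -⟩ := S.lift hb'
    refine ⟨b, hb', c, a, ⟨h1, h2, h3⟩, ha, (hasScalar_iff _ _ _).mpr ?_⟩
    have h7 : zmap H π ⟨c, h1⟩ = b := Subtype.ext h3
    rw [← h7, hΛ] at hlb
    have h8 : ω ⟨c, h1⟩ * ω ⟨c, h1⟩ = ω ⟨c, h1⟩ := by
      rw [← map_mul]
      exact congrArg ω (Subtype.ext h2)
    have h9 : ω ⟨c, h1⟩ ≠ 0 := by
      intro h0
      rw [h0, map_zero] at hlb
      exact zero_ne_one hlb
    have h10 : ω ⟨c, h1⟩ = 1 := mul_left_cancel₀ h9 (by rw [h8, mul_one])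
    rw [hω ⟨c, h1⟩, h10, map_one]
  · rintro b b' ⟨hb, c, a, h1, h2, h3⟩ ⟨hb', c', a', h1', h2', h3'⟩
    obtain ⟨Ω, _, ⟨ι⟩, ⟨κ⟩⟩ := exists_common K
    obtain ⟨red, hred⟩ := exists_red S.surj ι κ
    obtain ⟨ψ, -, hψ⟩ := exists_complex ι κ (S.splits H) hχ
    exact charInBlock_unique hb hb'
      ((key S.surj ι κ red hred (S.splits H) a ψ (by rw [h2]; exact hψ) hb).mp ⟨c, h1, h3⟩)
      ((key S.surj ι κ red hred (S.splits H) a' ψ (by rw [h2']; exact hψ) hb').mp ⟨c', h1', h3'⟩)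

/-- The weights over a system are counted by the complex weights for a suitable reduction map. -/
theorem IsSystem.numW_eq (S : IsSystem π K G) (p : ℕ) : ∃ red : integralClosure ℤ ℂ →+* k,
    ∀ B : MonoidAlgebra k G, numW π p K B = numWeightsIn p red B := by
  have := S.dvr
  have := S.complete
  have := S.frac
  have := S.charZero
  obtain ⟨Ω, _, ⟨ι⟩, ⟨κ⟩⟩ := exists_common K
  obtain ⟨red, hred⟩ := exists_red S.surj ι κ
  have hs : ∀ Q : Subgroup G, Splits K (NQ Q) := fun Q =>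
    (S.splits (normalizer (Q : Set G))).of_surj (QuotientGroup.mk' _)
      (QuotientGroup.mk'_surjective _)
  have h1 : ∀ w : KWeight p K G, ∃ ψ : NQ w.Q → ℂ, IsDefectZeroChar p ψ ∧
      ∀ x, κ (ψ x) = ι (w.φ x) := by
    intro w
    obtain ⟨ψ, h1, h2⟩ := exists_complex ι κ (hs w.Q) w.irr
    obtain ⟨d, h3, h4⟩ := w.defectZero
    exact ⟨ψ, ⟨h1, d, κ.injective (by rw [h2, h3, map_natCast, map_natCast]), h4⟩, h2⟩
  choose ψ hψ hκ using h1
  let t : KWeight p K G → Weight p G := fun w => ⟨w.Q, w.isPGroup, ψ w, hψ w⟩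
  have ht : Function.Bijective t := by
    constructor
    · rintro ⟨Q, h1, φ, h2, h3⟩ ⟨Q', h1', φ', h2', h3'⟩ hab
      obtain rfl : Q = Q' := congrArg Weight.Q hab
      have h4 : ψ ⟨Q, h1, φ, h2, h3⟩ = ψ ⟨Q, h1', φ', h2', h3'⟩ :=
        eq_of_heq (Weight.mk.inj hab).2
      obtain rfl : φ = φ' := funext fun x => ι.injective
        ((hκ ⟨Q, h1, φ, h2, h3⟩ x).symm.trans
          ((congrArg κ (congrFun h4 x)).trans (hκ ⟨Q, h1', φ', h2', h3'⟩ x)))
      rfl
    · rintro ⟨Q, h1, φ, h2⟩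
      obtain ⟨χ, h3, h4⟩ := exists_ordinary ι κ (hs Q) h2.1
      obtain ⟨d, h5, h6⟩ := h2.2
      have h7 : χ 1 = d := ι.injective (by rw [h4, h5, map_natCast, map_natCast])
      refine ⟨⟨Q, h1, χ, h3, d, h7, h6⟩, ?_⟩
      have h8 : ψ ⟨Q, h1, χ, h3, d, h7, h6⟩ = φ := funext fun x => κ.injective
        ((hκ ⟨Q, h1, χ, h3, d, h7, h6⟩ x).trans (h4 x))
      subst h8
      rfl
  refine ⟨red, fun B => Nat.card_congr (Quot.congr
    ((Equiv.ofBijective t ht).subtypeEquiv fun w => ?_) fun a b => ?_)⟩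
  · refine exists_congr fun b => and_congr_right fun hb => and_congr_left fun _ => ?_
    constructor
    · rintro ⟨c, a, h1, h2, h3⟩
      exact (key S.surj ι κ red hred (S.splits _) a (infl (t w))
        (fun n => by rw [h2]; exact hκ w _) hb).mp ⟨c, h1, h3⟩
    · intro h
      obtain ⟨a, ha⟩ := w.irr
      let a' := inflRep (QuotientGroup.mk' _) (QuotientGroup.mk'_surjective _) a
      have h2 : a'.1.2.character = w.infl := funext fun n => congrFun ha _
      obtain ⟨c, h1, h3⟩ := (key S.surj ι κ red hred (S.splits _) a' (infl (t w))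
        (fun n => by rw [h2]; exact hκ w _) hb).mpr h
      exact ⟨c, a', h1, h2, h3⟩
  · refine exists_congr fun g => and_congr_right fun _ => forall_congr' fun n =>
      forall_congr' fun n' => imp_congr_right fun _ => ?_
    have h1 := hκ b.1 (QuotientGroup.mk n')
    have h2 := hκ a.1 (QuotientGroup.mk n)
    exact ⟨fun h => κ.injective (h1.trans ((congrArg ι h).trans h2.symm)),
      fun h => ι.injective (h1.symm.trans ((congrArg κ h).trans h2))⟩

end P179S
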