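import Vale.Agent.P179S50.Defs

/-!
# Simple modules: existence, change of field, inflation
-/

namespace P179S

open Subgroup P179H524 P179B Module

section Basic

variable {F H : Type*} [Field F] [Group H]

theorem nontriv (a : IrrRep F H) : Nontrivial (Fin a.1.1 → F) := by
  by_contra h
  rw [not_nontrivial_iff_subsingleton] at h
  obtain ⟨W, W', hW⟩ := a.2.toNontrivial.exists_pair_ne
  apply hW
  ext v
  have hv : v = 0 := Subsingleton.elim _ _
  rw [hv]
  exact ⟨fun _ => W'.toSubmodule.zero_mem, fun _ => W.toSubmodule.zero_mem⟩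

theorem smul_one_inj (a : IrrRep F H) {c c' : F}
    (h : (c • 1 : Module.End F (Fin a.1.1 → F)) = c' • 1) : c = c' := by
  have := nontriv a
  have hinj : Function.Injective (algebraMap F (Module.End F (Fin a.1.1 → F))) :=
    FaithfulSMul.algebraMap_injective _ _
  apply hinj
  rw [Algebra.algebraMap_eq_smul_one, Algebra.algebraMap_eq_smul_one, h]

theorem irr_of {V : Type*} [AddCommGroup V] [Module F V] [Nontrivial V] (ρ : Representation F H V)
    (h : ∀ W : Subrepresentation ρ, W.toSubmodule = ⊥ ∨ W.toSubmodule = ⊤) : ρ.IsIrreducible := by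
  have : Nontrivial (Subrepresentation ρ) := ⟨⟨⊥, ⊤, fun h1 => by
    have h2 : (⊥ : Submodule F V) = ⊤ := congrArg Subrepresentation.toSubmodule h1
    exact bot_ne_top h2⟩⟩
  exact ⟨fun W => (h W).imp (fun h1 => Subrepresentation.ext h1)
    (fun h1 => Subrepresentation.ext h1)⟩

theorem splits_of_algClosed [IsAlgClosed F] : Splits F H := by
  intro a f hf
  have := a.2
  let T : Representation.IntertwiningMap a.1.2 a.1.2 :=
    { f with isIntertwining' := fun g => hf g }
  obtain ⟨c, hc⟩ :=
    (Representation.IsIrreducible.algebraMap_intertwiningMap_bijective_of_isAlgClosed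
      (ρ := a.1.2)).2 T
  refine ⟨c, ?_⟩
  have h := congrArg Representation.IntertwiningMap.toLinearMap hc
  refine LinearMap.ext fun v => ?_
  have h2 := congrArg (fun g : (Fin a.1.1 → F) →ₗ[F] (Fin a.1.1 → F) => g v) h
  exact h2.symm

/-- An invariant subspace of finite dimension in matrix form. -/
theorem exists_model {V : Type*} [AddCommGroup V] [Module F V] (ρ : Representation F H V)
    (U : Subrepresentation ρ) [FiniteDimensional F U.toSubmodule] :
    ∃ (τ : Representation F H (Fin (finrank F U.toSubmodule) → F))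
      (f : (Fin (finrank F U.toSubmodule) → F) →ₗ[F] V),
      Function.Injective f ∧ ∀ h v, f (τ h v) = ρ h (f v) := by
  let e : U.toSubmodule ≃ₗ[F] (Fin (finrank F U.toSubmodule) → F) :=
    (Module.finBasis F U.toSubmodule).equivFun
  refine ⟨(e.conjRingEquiv : _ ≃+* _).toMonoidHom.comp U.toRepresentation,
    U.toSubmodule.subtype ∘ₗ e.symm.toLinearMap, ?_, ?_⟩
  · exact U.toSubmodule.injective_subtype.comp e.symm.injective
  · intro h v
    simp [Subrepresentation.toRepresentation]

/-- Every nonzero representation of a finite group contains a simple one. -/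
theorem exists_irr_sub [Finite H] {V : Type*} [AddCommGroup V] [Module F V] [Nontrivial V]
    (ρ : Representation F H V) :
    ∃ (a : IrrRep F H) (f : (Fin a.1.1 → F) →ₗ[F] V),
      Function.Injective f ∧ ∀ h v, f (a.1.2 h v) = ρ h (f v) := by
  classical
  let P : ℕ → Prop := fun n => 0 < n ∧ ∃ (τ : Representation F H (Fin n → F))
    (f : (Fin n → F) →ₗ[F] V), Function.Injective f ∧ ∀ h v, f (τ h v) = ρ h (f v)
  have key : ∀ U : Subrepresentation ρ, FiniteDimensional F U.toSubmodule →
      U.toSubmodule ≠ ⊥ → P (finrank F U.toSubmodule) := by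
    intro U hU hne
    refine ⟨?_, exists_model ρ U⟩
    rw [Nat.pos_iff_ne_zero]
    intro h0
    exact hne (Submodule.finrank_eq_zero.mp h0)
  have hex : ∃ n, P n := by
    obtain ⟨v, hv⟩ := exists_ne (0 : V)
    let U : Subrepresentation ρ :=
      { toSubmodule := Submodule.span F (Set.range fun h : H => ρ h v)
        apply_mem_toSubmodule := by
          intro g w hw
          have h1 : Submodule.map (ρ g) (Submodule.span F (Set.range fun h : H => ρ h v)) ≤
              Submodule.span F (Set.range fun h : H => ρ h v) := by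
            rw [Submodule.map_span_le]
            rintro _ ⟨h, rfl⟩
            refine Submodule.subset_span ⟨g * h, ?_⟩
            simp
          exact h1 ⟨w, hw, rfl⟩ }
    refine ⟨_, key U (FiniteDimensional.span_of_finite F (Set.finite_range _)) ?_⟩
    intro h0
    apply hv
    have h1 : v ∈ U.toSubmodule := Submodule.subset_span ⟨1, by simp⟩
    rw [h0] at h1
    exact h1
  obtain ⟨hpos, τ, f, hf, hτ⟩ := Nat.find_spec hex
  have hnt : Nontrivial (Fin (Nat.find hex) → F) := by
    have : Nonempty (Fin (Nat.find hex)) := ⟨⟨0, hpos⟩⟩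
    infer_instance
  refine ⟨⟨⟨_, τ⟩, irr_of τ fun W => ?_⟩, f, hf, hτ⟩
  by_cases hW : W.toSubmodule = ⊥
  · exact Or.inl hW
  right
  let U : Subrepresentation ρ :=
    { toSubmodule := W.toSubmodule.map f
      apply_mem_toSubmodule := by
        rintro g _ ⟨w, hw, rfl⟩
        exact ⟨τ g w, W.apply_mem_toSubmodule g hw, hτ g w⟩ }
  have h1 : finrank F U.toSubmodule = finrank F W.toSubmodule :=
    (Submodule.equivMapOfInjective f hf W.toSubmodule).finrank_eq.symm
  have h2 : U.toSubmodule ≠ ⊥ := by
    intro h0
    apply hW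
    rw [eq_bot_iff]
    intro w hw
    have h3 : f w ∈ U.toSubmodule := ⟨w, hw, rfl⟩
    rw [h0, Submodule.mem_bot] at h3
    exact (Submodule.mem_bot F).mpr (hf (h3.trans (map_zero f).symm))
  have h3 : Nat.find hex ≤ finrank F W.toSubmodule := by
    rw [← h1]
    exact Nat.find_min' hex (key U (inferInstanceAs
      (FiniteDimensional F (W.toSubmodule.map f))) h2)
  apply Submodule.eq_top_of_finrank_eq
  apply le_antisymm (Submodule.finrank_le _)
  simpa using h3

/-- A nonzero representation in characteristic zero with only scalar endomorphisms is simple. -/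
theorem irr_of_scalar [Finite H] [CharZero F] {V : Type*} [AddCommGroup V] [Module F V]
    [Nontrivial V] (ρ : Representation F H V)
    (h : ∀ f : Module.End F V, (∀ g, f * ρ g = ρ g * f) → ∃ c : F, f = c • 1) :
    ρ.IsIrreducible := by
  have : NeZero (Nat.card H : F) := ⟨by exact_mod_cast (Nat.card_pos (α := H)).ne'⟩
  refine irr_of ρ fun W => ?_
  obtain ⟨W', hW'⟩ := exists_isCompl W
  have hc : IsCompl W.toSubmodule W'.toSubmodule := by
    constructor
    · rw [disjoint_iff]
      exact congrArg Subrepresentation.toSubmodule hW'.inf_eq_bot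
    · rw [codisjoint_iff]
      exact congrArg Subrepresentation.toSubmodule hW'.sup_eq_top
  let f : Module.End F V := W.toSubmodule.projection W'.toSubmodule hc
  have f1 : ∀ v ∈ W.toSubmodule, f v = v := fun v hv =>
    Submodule.projection_apply_left hc ⟨v, hv⟩
  have f2 : ∀ v ∈ W'.toSubmodule, f v = 0 := fun v hv =>
    (Submodule.projection_apply_eq_zero_iff hc).mpr hv
  obtain ⟨c, hcf⟩ := h f (fun g => LinearMap.ext fun v => by
    have hv : v ∈ W.toSubmodule ⊔ W'.toSubmodule := by rw [hc.sup_eq_top]; trivial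
    obtain ⟨x, hx, y, hy, rfl⟩ := Submodule.mem_sup.mp hv
    simp only [Module.End.mul_apply, map_add]
    rw [f1 x hx, f2 y hy, f1 _ (W.apply_mem_toSubmodule g hx),
      f2 _ (W'.apply_mem_toSubmodule g hy), map_zero])
  by_cases hc1 : c = 1
  · right
    rw [eq_top_iff]
    intro v _
    have h1 : f v = v := by rw [hcf, hc1]; simp
    rw [← h1]
    exact Submodule.projection_apply_mem hc v
  · left
    rw [eq_bot_iff]
    intro v hv
    have h1 := f1 v hv
    rw [hcf] at h1
    have h2 : (c - 1) • v = 0 := by
      rw [sub_smul, one_smul, sub_eq_zero]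
      simpa using h1
    exact (Submodule.mem_bot F).mpr ((smul_eq_zero.mp h2).resolve_left (sub_ne_zero.mpr hc1))

/-- Inflation along a surjection. -/
def inflRep {N : Type*} [Group N] (q : N →* H) (hq : Function.Surjective q) (a : IrrRep F H) :
    IrrRep F N :=
  ⟨⟨a.1.1, a.1.2.comp q⟩, by
    have := nontriv a
    refine irr_of _ fun W => ?_
    let U : Subrepresentation a.1.2 :=
      { toSubmodule := W.toSubmodule
        apply_mem_toSubmodule := by
          intro g v hv
          obtain ⟨n, rfl⟩ := hq g
          exact W.apply_mem_toSubmodule n hv }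
    exact (a.2.eq_bot_or_eq_top U).imp (fun h => congrArg Subrepresentation.toSubmodule h)
      (fun h => congrArg Subrepresentation.toSubmodule h)⟩

theorem inflRep_char {N : Type*} [Group N] (q : N →* H) (hq : Function.Surjective q)
    (a : IrrRep F H) (n : N) : (inflRep q hq a).1.2.character n = a.1.2.character (q n) := rfl

theorem Splits.of_surj {N : Type*} [Group N] (q : N →* H) (hq : Function.Surjective q)
    (h : Splits F N) : Splits F H :=
  fun a f hf => h (inflRep q hq a) f fun n => hf (q n)

end Basic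

section Change

variable {F L H : Type*} [Field F] [Field L] [Group H] (ι : F →+* L)

/-- Extension of the field of a matrix representation. -/
noncomputable def bc {n : ℕ} (ρ : Representation F H (Fin n → F)) :
    Representation L H (Fin n → L) where
  toFun h := Matrix.toLin' ((LinearMap.toMatrix' (ρ h)).map ι)
  map_one' := by
    rw [map_one, LinearMap.toMatrix'_one, Matrix.map_one _ (map_zero ι) (map_one ι),
      Matrix.toLin'_one]
    rfl
  map_mul' x y := by
    rw [map_mul, LinearMap.toMatrix'_mul, Matrix.map_mul, Matrix.toLin'_mul]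
    rfl

theorem bc_char {n : ℕ} (ρ : Representation F H (Fin n → F)) (h : H) :
    (bc ι ρ).character h = ι (ρ.character h) := by
  have h1 : ρ.character h = (LinearMap.toMatrix' (ρ h)).trace := by
    rw [← Matrix.trace_toLin'_eq, Matrix.toLin'_toMatrix']
    rfl
  rw [h1, AddMonoidHom.map_trace]
  exact Matrix.trace_toLin'_eq _

theorem finrank_end_eq_one {n : ℕ} [Nontrivial (Fin n → F)] (ρ : Representation F H (Fin n → F))
    (h : ∀ f : Module.End F (Fin n → F), (∀ g, f * ρ g = ρ g * f) → ∃ c : F, f = c • 1) :
    finrank F (Representation.IntertwiningMap ρ ρ) = 1 := by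
  rw [finrank_eq_one_iff']
  refine ⟨Representation.IntertwiningMap.id ρ, ?_, ?_⟩
  · intro h0
    obtain ⟨v, hv⟩ := exists_ne (0 : Fin n → F)
    exact hv (congrArg (fun T : Representation.IntertwiningMap ρ ρ => T v) h0)
  · intro T
    obtain ⟨c, hc⟩ := h T.toLinearMap (fun g => T.isIntertwining' g)
    exact ⟨c, Representation.IntertwiningMap.ext hc.symm⟩

theorem bc_irr [Finite H] [CharZero F] (hs : Splits F H) (a : IrrRep F H) :
    (bc ι a.1.2).IsIrreducible := by
  classical
  have : CharZero L := charZero_of_injective_ringHom ι.injective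
  have := Fintype.ofFinite H
  have hn := nontriv a
  have hnL : Nontrivial (Fin a.1.1 → L) := by
    have : Nonempty (Fin a.1.1) := by
      by_contra h0
      rw [not_nonempty_iff] at h0
      exact not_subsingleton (Fin a.1.1 → F) inferInstance
    infer_instance
  have i1 : Invertible (Nat.card H : F) :=
    invertibleOfNonzero (by exact_mod_cast (Nat.card_pos (α := H)).ne')
  have i2 : Invertible (Nat.card H : L) :=
    invertibleOfNonzero (by exact_mod_cast (Nat.card_pos (α := H)).ne')
  have h1 := Representation.card_inv_mul_sum_char_mul_char_eq_finrank a.1.2 a.1.2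
  have h2 := Representation.card_inv_mul_sum_char_mul_char_eq_finrank (bc ι a.1.2) (bc ι a.1.2)
  rw [finrank_end_eq_one _ (hs a)] at h1
  have h3 := congrArg ι h1
  simp only [map_mul, map_inv₀, map_natCast, map_sum, ← bc_char] at h3
  rw [h2] at h3
  have h4 : finrank L (Representation.IntertwiningMap (bc ι a.1.2) (bc ι a.1.2)) = 1 := by
    exact_mod_cast h3
  refine irr_of_scalar _ fun f hf => ?_
  have h5 : Representation.IntertwiningMap.id (bc ι a.1.2) ≠ 0 := by
    intro h0
    obtain ⟨v, hv⟩ := exists_ne (0 : Fin a.1.1 → L)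
    exact hv (congrArg
      (fun T : Representation.IntertwiningMap (bc ι a.1.2) (bc ι a.1.2) => T v) h0)
  obtain ⟨c, hc⟩ := (finrank_eq_one_iff_of_nonzero' _ h5).mp h4 ⟨f, fun g => hf g⟩
  exact ⟨c, (congrArg Representation.IntertwiningMap.toLinearMap hc).symm⟩

theorem irrCh_map [Finite H] [CharZero F] (hs : Splits F H) {χ : H → F} (hχ : IsIrrCh χ) :
    IsIrrCh fun h => ι (χ h) := by
  obtain ⟨a, rfl⟩ := hχ
  exact ⟨⟨⟨_, bc ι a.1.2⟩, bc_irr ι hs a⟩, funext fun h => bc_char ι _ h⟩

theorem irrCh_lift [Finite H] [CharZero F] (hs : Splits F H) {ψ : H → L} (hψ : IsIrrCh ψ) :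
    ∃ χ : H → F, IsIrrCh χ ∧ ∀ h, ι (χ h) = ψ h := by
  classical
  obtain ⟨s, rfl⟩ := hψ
  let _ : Algebra F L := ι.toAlgebra
  have := nontriv s
  let σ : Representation F H (Fin s.1.1 → L) :=
    { toFun := fun h => (s.1.2 h).restrictScalars F
      map_one' := by rw [map_one]; rfl
      map_mul' := fun x y => by rw [map_mul]; rfl }
  obtain ⟨a, f, hf, hσ⟩ := exists_irr_sub σ
  refine ⟨_, ⟨a, rfl⟩, fun h => ?_⟩
  let T : (Fin a.1.1 → L) →ₗ[L] (Fin s.1.1 → L) :=
    (Pi.basisFun L (Fin a.1.1)).constr L fun i => f (Pi.single i 1)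
  have hT : ∀ v : Fin a.1.1 → F, T (fun i => ι (v i)) = f v := by
    intro v
    have h1 : v = ∑ i, v i • Pi.single i (1 : F) := pi_eq_sum_univ' v
    conv_rhs => rw [h1, map_sum]
    simp only [T, Basis.constr_apply_fintype, Pi.basisFun_equivFun, LinearEquiv.refl_apply,
      map_smul]
    rfl
  have hbc : ∀ (g : H) (v : Fin a.1.1 → F),
      bc ι a.1.2 g (fun i => ι (v i)) = fun i => ι (a.1.2 g v i) := by
    intro g v
    funext i
    change (((LinearMap.toMatrix' (a.1.2 g)).map ι).mulVec (ι ∘ v)) i = _
    rw [← RingHom.map_mulVec, LinearMap.toMatrix'_mulVec]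
  have hint : ∀ g : H, T ∘ₗ bc ι a.1.2 g = s.1.2 g ∘ₗ T := by
    intro g
    apply (Pi.basisFun L (Fin a.1.1)).ext
    intro i
    have h1 : Pi.basisFun L (Fin a.1.1) i = fun j => ι ((Pi.single i 1 : Fin a.1.1 → F) j) := by
      funext j
      simp [Pi.single_apply, apply_ite ι]
    rw [h1, LinearMap.comp_apply, LinearMap.comp_apply, hbc, hT, hT, hσ]
    rfl
  have i1 := bc_irr ι hs a
  have i2 := s.2
  let T' : Representation.IntertwiningMap (bc ι a.1.2) s.1.2 := ⟨T, hint⟩
  rcases Representation.IsIrreducible.bijective_or_eq_zero T' with hb | h0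
  · rw [← bc_char, Representation.char_iso (T'.ofBijective hb)]
  · exfalso
    have := nontriv a
    obtain ⟨v, hv⟩ := exists_ne (0 : Fin a.1.1 → F)
    apply hv
    apply hf
    rw [← hT, map_zero]
    exact congrArg (fun S : Representation.IntertwiningMap (bc ι a.1.2) s.1.2 =>
      S fun i => ι (v i)) h0

end Change

end P179S
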