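import Vale.Agent.P179S50.Main

/-!
# The central character of a block is the scalar on its simple modules
-/

namespace P179S

open P179H524 P179B

theorem block_scalar {F H : Type*} [Field F] [IsAlgClosed F] [Group H] [Finite H]
    {B : MonoidAlgebra F H} (hB : IsBlock B) :
    (∃ a : IrrRep F H, InBlock a B) ∧ ∀ z ∈ Subalgebra.center F (MonoidAlgebra F H),
      HasScalarOn B z (centralChar B z) := by
  have := artinian_ctr (F := F) (H := H)
  refine ⟨exists_inBlock hB, fun z hz a ha => ?_⟩
  obtain ⟨l, hl, hlB⟩ := block_hom hB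
  obtain ⟨l', hl'⟩ := exists_chi splits_of_algClosed a
  have h1 : l' ⟨B, hB.1⟩ = 1 := by
    apply smul_one_inj a
    rw [← hl']
    exact (hasScalar_iff a B 1).mp ha
  have h2 : l' = l := P179C.eq_of_prim ((isBlock_iff_prim ⟨B, hB.1⟩).mp hB) l' l h1 hlB
  rw [hasScalar_iff, hl ⟨z, hz⟩, ← h2]
  exact hl' ⟨z, hz⟩

end P179S
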